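import Vale.Agent.P227.M.Key568.Pt

/-! # P227/M, block ID (helper568): the key inequality `StmtKey` -/

open MeasureTheory Set Filter Topology Metric
open scoped NNReal

namespace Vale.Agent.P227.M.Key568

open Vale.Agent.P227.M.Sw

variable {n : ℕ}

/-- `∑_b` of the summed commutator identity -/
theorem swapSum3 {V : E n → ℝ} (hV : ContDiff ℝ 2 V) {P Q : Fin n → Fin n → E n → ℝ}
    (hP : ∀ a b, LL (P a b)) (hQ : ∀ a b, LL (Q a b))
    (hs : (∀ a b, BS (P a b)) ∨ ∀ a b, BS (Q a b)) :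
    ∫ x, (∑ b, (∑ a, (pd a V x * P a b x - pd a (P a b) x))
        * (∑ c, (pd c V x * Q c b x - pd c (Q c b) x))) * Real.exp (-V x)
      = (∫ x, (∑ b, ∑ a, ∑ c, pd c (P a b) x * pd a (Q c b) x) * Real.exp (-V x))
        + ∫ x, (∑ b, ∑ a, ∑ c, hess V x c a * P a b x * Q c b x) * Real.exp (-V x) := by
  have hw := (LL.exp_neg hV).lb
  have hVa : ∀ a, LB (pd a V) := fun a => LB.of_cont (pd_c1 hV a).continuous
  have hH : ∀ a c, LB (fun x => hess V x c a) := fun a c => LB.of_cont (rad_hess_cont hV c a)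
  have i1 : ∀ b, Integrable (fun x => (∑ a, (pd a V x * P a b x - pd a (P a b) x))
      * (∑ c, (pd c V x * Q c b x - pd c (Q c b) x)) * Real.exp (-V x)) := by
    intro b
    refine LB.integrable (((lb_sum _ fun a _ => ((hVa a).mul (hP a b).lb).sub ((hP a b).pd_lb a)).mul
      (lb_sum _ fun c _ => ((hVa c).mul (hQ c b).lb).sub ((hQ c b).pd_lb c))).mul hw) ?_
    rcases hs with h | h
    · exact (bs_sum _ fun a _ => ((h a b).mul_left).sub ((h a b).pd a)).mul_right.mul_right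
    · exact (bs_sum _ fun c _ => ((h c b).mul_left).sub ((h c b).pd c)).mul_left.mul_right
  have i2 : ∀ b, Integrable (fun x => (∑ a, ∑ c, pd c (P a b) x * pd a (Q c b) x)
      * Real.exp (-V x)) := by
    intro b
    refine LB.integrable ((lb_sum _ fun a _ => lb_sum _ fun c _ =>
      ((hP a b).pd_lb c).mul ((hQ c b).pd_lb a)).mul hw) ?_
    rcases hs with h | h
    · exact (bs_sum _ fun a _ => bs_sum _ fun c _ => ((h a b).pd c).mul_right).mul_right
    · exact (bs_sum _ fun a _ => bs_sum _ fun c _ => ((h c b).pd a).mul_left).mul_right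
  have i3 : ∀ b, Integrable (fun x => (∑ a, ∑ c, hess V x c a * P a b x * Q c b x)
      * Real.exp (-V x)) := by
    intro b
    refine LB.integrable ((lb_sum _ fun a _ => lb_sum _ fun c _ =>
      ((hH a c).mul (hP a b).lb).mul (hQ c b).lb).mul hw) ?_
    rcases hs with h | h
    · exact (bs_sum _ fun a _ => bs_sum _ fun c _ => ((h a b).mul_left).mul_right).mul_right
    · exact (bs_sum _ fun a _ => bs_sum _ fun c _ => (h c b).mul_left).mul_right
  have e1 : (fun x => (∑ b, (∑ a, (pd a V x * P a b x - pd a (P a b) x))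
      * (∑ c, (pd c V x * Q c b x - pd c (Q c b) x))) * Real.exp (-V x))
      = fun x => ∑ b, (∑ a, (pd a V x * P a b x - pd a (P a b) x))
      * (∑ c, (pd c V x * Q c b x - pd c (Q c b) x)) * Real.exp (-V x) := by
    funext x
    rw [Finset.sum_mul]
  have e2 : (fun x => (∑ b, ∑ a, ∑ c, pd c (P a b) x * pd a (Q c b) x) * Real.exp (-V x))
      = fun x => ∑ b, (∑ a, ∑ c, pd c (P a b) x * pd a (Q c b) x) * Real.exp (-V x) := by
    funext x
    rw [Finset.sum_mul]
  have e3 : (fun x => (∑ b, ∑ a, ∑ c, hess V x c a * P a b x * Q c b x) * Real.exp (-V x))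
      = fun x => ∑ b, (∑ a, ∑ c, hess V x c a * P a b x * Q c b x) * Real.exp (-V x) := by
    funext x
    rw [Finset.sum_mul]
  rw [e1, e2, e3, integral_finsetSum _ fun b _ => i1 b, integral_finsetSum _ fun b _ => i2 b,
    integral_finsetSum _ fun b _ => i3 b, ← Finset.sum_add_distrib]
  refine Finset.sum_congr rfl fun b _ => ?_
  exact swapSum hV (fun a => hP a b) (fun c => hQ c b) (hs.imp (fun h a => h a b) (fun h a => h a b))

section

variable {ψ V : E n → ℝ} {c C M : ℝ}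

/-- `∫ ⟨τ∇(LF+F), L∇F⟩ = ∫ ∂K ∂U + ∫ tr (H K U)` -/
theorem eqI (h : MM ψ V c C M) (hV : ContDiff ℝ 2 V) {F : E n → ℝ}
    (hF : ContDiff ℝ (⊤ : ℕ∞) F) (hs : BS F) :
    ∫ x, (∑ b, fld ψ (fun z => Lop ψ F z + F z) b x * Lop ψ (pd b F) x) * Real.exp (-V x)
      = (∫ x, (∑ b, ∑ a, ∑ c, pd c (Kf ψ F a b) x * pd a (Uf ψ F c b) x) * Real.exp (-V x))
        + ∫ x, (∑ b, ∑ a, ∑ c, hess V x c a * Kf ψ F a b x * Uf ψ F c b x) * Real.exp (-V x) := by
  rw [← swapSum3 hV (fun a b => ll_K h hF a b) (fun a b => ll_U h hF a b)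
    (Or.inl fun a b => bs_K hs a b)]
  refine integral_congr_ae ?_
  filter_upwards [rad_good h] with x hx
  congr 1
  refine Finset.sum_congr rfl fun b _ => ?_
  rw [div_K h hx hF b]
  have e : ∑ c, (pd c V x * Uf ψ F c b x - pd c (Uf ψ F c b) x) = - Lop ψ (pd b F) x :=
    div_fld h hx (pd2 hF b)
  rw [e]
  ring

/-- `∫ tr (τNτN) = ∫ ∂τ ∂W + ∫ tr (H τ W)` -/
theorem eqII (h : MM ψ V c C M) (hV : ContDiff ℝ 2 V) {F : E n → ℝ}
    (hF : ContDiff ℝ (⊤ : ℕ∞) F) (hs : BS F) :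
    ∫ x, (∑ b, Wf ψ F b b x) * Real.exp (-V x)
      = (∫ x, (∑ b, ∑ a, ∑ c, pd c (fun y => tau ψ y a b) x * pd a (Wf ψ F c b) x)
          * Real.exp (-V x))
        + ∫ x, (∑ b, ∑ a, ∑ c, hess V x c a * tau ψ x a b * Wf ψ F c b x)
          * Real.exp (-V x) := by
  rw [← swapSum3 hV (P := fun a b y => tau ψ y a b) (fun a b => ll_tau h a b)
    (fun a b => ll_W h hF a b) (Or.inr fun a b => bs_W hs a b)]
  have hw := (LL.exp_neg hV).lb
  have hVa : ∀ a, LB (pd a V) := fun a => LB.of_cont (pd_c1 hV a).continuous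
  have st : ∀ {x : E n}, Good ψ x → ∀ b,
      ∑ a, (pd a V x * tau ψ x a b - pd a (fun y => tau ψ y a b) x) = x b := by
    intro x hx b
    have := rad_div h hx b
    have e : ∑ a, (pd a V x * tau ψ x a b - pd a (fun y => tau ψ y a b) x)
        = - ∑ a, (pd a (fun y => tau ψ y a b) x - tau ψ x a b * pd a V x) := by
      rw [← Finset.sum_neg_distrib]
      refine Finset.sum_congr rfl fun a _ => ?_
      ring
    rw [e, this]
    ring
  have r1 : ∫ x, (∑ b, (∑ a, (pd a V x * tau ψ x a b - pd a (fun y => tau ψ y a b) x))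
        * (∑ c, (pd c V x * Wf ψ F c b x - pd c (Wf ψ F c b) x))) * Real.exp (-V x)
      = ∫ x, ∑ b, (∑ c, (pd c V x * Wf ψ F c b x - pd c (Wf ψ F c b) x)) * x b
        * Real.exp (-V x) := by
    refine integral_congr_ae ?_
    filter_upwards [rad_good h] with x hx
    rw [Finset.sum_mul]
    refine Finset.sum_congr rfl fun b _ => ?_
    rw [st hx b]
    ring
  have i1 : ∀ b, Integrable (fun x : E n =>
      (∑ c, (pd c V x * Wf ψ F c b x - pd c (Wf ψ F c b) x)) * x b * Real.exp (-V x)) := by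
    intro b
    refine LB.integrable (((lb_sum _ fun c _ => ((hVa c).mul (ll_W h hF c b).lb).sub
      ((ll_W h hF c b).pd_lb c)).mul (ll_coord b).lb).mul hw) ?_
    exact (bs_sum _ fun c _ => ((bs_W hs c b).mul_left).sub ((bs_W hs c b).pd c)).mul_right.mul_right
  have i2 : ∀ b, Integrable (fun x : E n => Wf ψ F b b x * Real.exp (-V x)) := fun b =>
    LB.integrable ((ll_W h hF b b).lb.mul hw) (bs_W hs b b).mul_right
  rw [r1, integral_finsetSum _ fun b _ => i1 b]
  have e2 : (fun x => (∑ b, Wf ψ F b b x) * Real.exp (-V x))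
      = fun x => ∑ b, Wf ψ F b b x * Real.exp (-V x) := by
    funext x
    rw [Finset.sum_mul]
  rw [e2, integral_finsetSum _ fun b _ => i2 b]
  refine Finset.sum_congr rfl fun b _ => ?_
  rw [ibpSum hV (P := fun c => Wf ψ F c b) (fun c => ll_W h hF c b) (ll_coord b)
    (Or.inl fun c => bs_W hs c b)]
  refine integral_congr_ae (Eventually.of_forall fun x => ?_)
  simp only
  congr 1
  have e3 : ∀ c, Wf ψ F c b x * pd c (fun y : E n => y b) x = if c = b then Wf ψ F c b x else 0 := by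
    intro c
    rw [pd_coord]
    by_cases hc : c = b
    · rw [if_pos hc, if_pos hc.symm, mul_one]
    · rw [if_neg hc, if_neg (fun h => hc h.symm), mul_zero]
  rw [Finset.sum_congr rfl fun c _ => e3 c]
  simp

/-- flat Bochner -/
theorem eqIII (h : MM ψ V c C M) (hV : ContDiff ℝ 2 V) {u : E n → ℝ}
    (hu : ContDiff ℝ (⊤ : ℕ∞) u) (hs : BS u) :
    ∫ x, (Lop ψ u x) ^ 2 * Real.exp (-V x)
      = (∫ x, (∑ a, ∑ c, pd c (fld ψ u a) x * pd a (fld ψ u c) x) * Real.exp (-V x))
        + ∫ x, (∑ a, ∑ c, hess V x c a * fld ψ u a x * fld ψ u c x) * Real.exp (-V x) := by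
  rw [← swapSum hV (P := fld ψ u) (Q := fld ψ u) (fun a => ll_fld h (two_le hu) a)
    (fun a => ll_fld h (two_le hu) a) (Or.inl fun a => bs_fld hs a)]
  refine integral_congr_ae ?_
  filter_upwards [rad_good h] with x hx
  rw [div_fld h hx (two_le hu)]
  ring

/-- `- ∫ ⟨s, L∇F⟩ = ∫ tr (U^T Ds)` -/
theorem eqIV (h : MM ψ V c C M) (hV : ContDiff ℝ 2 V) {F u : E n → ℝ}
    (hF : ContDiff ℝ (⊤ : ℕ∞) F) (hs : BS F) (hu : ContDiff ℝ (⊤ : ℕ∞) u) :
    ∫ x, (∑ b, fld ψ u b x * Lop ψ (pd b F) x) * Real.exp (-V x)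
      = - ∫ x, (∑ b, ∑ a, Uf ψ F a b x * pd a (fld ψ u b) x) * Real.exp (-V x) := by
  have hw := (LL.exp_neg hV).lb
  have hVa : ∀ a, LB (pd a V) := fun a => LB.of_cont (pd_c1 hV a).continuous
  have i1 : ∀ b, Integrable (fun x : E n =>
      (∑ a, (pd a V x * Uf ψ F a b x - pd a (Uf ψ F a b) x)) * fld ψ u b x * Real.exp (-V x)) := by
    intro b
    refine LB.integrable (((lb_sum _ fun c _ => ((hVa c).mul (ll_U h hF c b).lb).sub
      ((ll_U h hF c b).pd_lb c)).mul (ll_fld h (two_le hu) b).lb).mul hw) ?_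
    exact (bs_sum _ fun c _ => ((bs_U hs c b).mul_left).sub ((bs_U hs c b).pd c)).mul_right.mul_right
  have i2 : ∀ b, Integrable (fun x : E n =>
      (∑ a, Uf ψ F a b x * pd a (fld ψ u b) x) * Real.exp (-V x)) := by
    intro b
    refine LB.integrable ((lb_sum _ fun a _ => (ll_U h hF a b).lb.mul
      ((ll_fld h (two_le hu) b).pd_lb a)).mul hw) ?_
    exact (bs_sum _ fun a _ => (bs_U hs a b).mul_right).mul_right
  have e2 : (fun x => (∑ b, ∑ a, Uf ψ F a b x * pd a (fld ψ u b) x) * Real.exp (-V x))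
      = fun x => ∑ b, (∑ a, Uf ψ F a b x * pd a (fld ψ u b) x) * Real.exp (-V x) := by
    funext x
    rw [Finset.sum_mul]
  rw [e2, integral_finsetSum _ fun b _ => i2 b]
  have e3 : ∑ b, ∫ x, (∑ a, Uf ψ F a b x * pd a (fld ψ u b) x) * Real.exp (-V x)
      = ∑ b, ∫ x, (∑ a, (pd a V x * Uf ψ F a b x - pd a (Uf ψ F a b) x)) * fld ψ u b x
        * Real.exp (-V x) := by
    refine Finset.sum_congr rfl fun b _ => ?_
    rw [ibpSum hV (P := fun a => Uf ψ F a b) (fun a => ll_U h hF a b) (ll_fld h (two_le hu) b)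
      (Or.inl fun a => bs_U hs a b)]
  rw [e3, ← integral_finsetSum _ fun b _ => i1 b, ← integral_neg]
  refine integral_congr_ae ?_
  filter_upwards [rad_good h] with x hx
  rw [Finset.sum_mul, ← Finset.sum_neg_distrib]
  refine Finset.sum_congr rfl fun b _ => ?_
  have e : ∑ a, (pd a V x * Uf ψ F a b x - pd a (Uf ψ F a b) x) = - Lop ψ (pd b F) x :=
    div_fld h hx (pd2 hF b)
  rw [e]
  ring

end

end Vale.Agent.P227.M.Key568
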