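import Vale.Agent.P227.M.Key568.Key

/-! # P227/M, block ID (helper568): assembly of `StmtKey` -/

open MeasureTheory Set Filter Topology Metric
open scoped NNReal

namespace Vale.Agent.P227.M.Key568

open Vale.Agent.P227.M.Sw

variable {n : ℕ}

lemma tr3 (A B D : Matrix (Fin n) (Fin n) ℝ) :
    (A * B * D.transpose).trace = ∑ b, ∑ a, ∑ c, A c a * B a b * D c b := by
  simp only [Matrix.trace, Matrix.diag_apply, Matrix.mul_apply, Matrix.transpose_apply,
    Finset.sum_mul]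
  rw [Finset.sum_comm]
  refine Finset.sum_congr rfl fun b _ => ?_
  rw [Finset.sum_comm]

section

variable {ψ V : E n → ℝ} {c C M : ℝ}

lemma K_eq (ψ F : E n → ℝ) (a b : Fin n) (x : E n) :
    Kf ψ F a b x = (tau ψ x * hess F x * tau ψ x) a b := rfl

lemma W_eq (ψ F : E n → ℝ) (a b : Fin n) (x : E n) :
    Wf ψ F a b x = ((tau ψ x * hess F x) * (tau ψ x * hess F x)) a b := rfl

lemma hessT {F : E n → ℝ} (hF : ContDiff ℝ (⊤ : ℕ∞) F) (x : E n) :
    (hess F x).transpose = hess F x := by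
  ext i j
  exact rad_hess_symm (two_le hF) x j i

lemma trI (h : MM ψ V c C M) {F : E n → ℝ} (hF : ContDiff ℝ (⊤ : ℕ∞) F) (x : E n) :
    (hess V x * tau ψ x * hess F x * tau ψ x * hess F x * tau ψ x).trace
      = ∑ b, ∑ a, ∑ c, hess V x c a * Kf ψ F a b x * Uf ψ F c b x := by
  have e := tr3 (hess V x) (tau ψ x * hess F x * tau ψ x) (tau ψ x * hess F x)
  rw [Matrix.transpose_mul, hessT hF, tau_transpose h] at e
  have e2 : hess V x * tau ψ x * hess F x * tau ψ x * hess F x * tau ψ x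
      = hess V x * (tau ψ x * hess F x * tau ψ x) * (hess F x * tau ψ x) := by
    simp only [Matrix.mul_assoc]
  rw [e2, e]
  rfl

lemma trII (h : MM ψ V c C M) {F : E n → ℝ} (hF : ContDiff ℝ (⊤ : ℕ∞) F) (x : E n) :
    (hess V x * tau ψ x * hess F x * tau ψ x * hess F x * tau ψ x).trace
      = ∑ b, ∑ a, ∑ c, hess V x c a * tau ψ x a b * Wf ψ F c b x := by
  have e := tr3 (hess V x) (tau ψ x) ((tau ψ x * hess F x) * (tau ψ x * hess F x))
  rw [Matrix.transpose_mul, Matrix.transpose_mul, hessT hF, tau_transpose h] at e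
  have e2 : hess V x * tau ψ x * hess F x * tau ψ x * hess F x * tau ψ x
      = hess V x * tau ψ x * (hess F x * tau ψ x * (hess F x * tau ψ x)) := by
    simp only [Matrix.mul_assoc]
  rw [e2, e]
  rfl

lemma ll_hess {F : E n → ℝ} (hF : ContDiff ℝ (⊤ : ℕ∞) F) (i j : Fin n) :
    LL (fun x => hess F x i j) := ll_pd (pd2 hF j) i

lemma bs_hess {F : E n → ℝ} (hF : BS F) (i j : Fin n) :
    BS (fun x => hess F x i j) := (hF.pd j).pd i

lemma ll_Lop (h : MM ψ V c C M) {F : E n → ℝ} (hF : ContDiff ℝ (⊤ : ℕ∞) F) :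
    LL (fun x => Lop ψ F x) :=
  (ll_sum _ fun i _ => ll_sum _ fun j _ => (ll_tau h i j).mul (ll_hess hF i j)).sub
    (ll_sum _ fun i _ => (ll_coord i).mul (ll_pd (two_le hF) i))

lemma bs_Lop {F : E n → ℝ} (hF : BS F) : BS (fun x => Lop ψ F x) :=
  (bs_sum _ fun i _ => bs_sum _ fun j _ => (bs_hess hF i j).mul_left).sub
    (bs_sum _ fun i _ => (hF.pd i).mul_left)

lemma lb_fld (h : MM ψ V c C M) {g : E n → ℝ} (hg : LL g) (b : Fin n) : LB (fld ψ g b) :=
  lb_sum _ fun k _ => (ll_tau h b k).lb.mul (hg.pd_lb k)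

lemma comb5 {f1 f2 f3 f4 f5 : E n → ℝ} (j1 : Integrable f1) (j2 : Integrable f2)
    (j3 : Integrable f3) (j4 : Integrable f4) (j5 : Integrable f5) :
    (∫ x, f1 x) - 2 * (∫ x, f2 x) + (∫ x, f3 x) + 2 * (∫ x, f4 x) - ∫ x, f5 x
      = ∫ x, (f1 x - 2 * f2 x + f3 x + 2 * f4 x - f5 x) := by
  have h2 := j2.const_mul 2
  have h4 := j4.const_mul 2
  have e1 : ∫ x, (f1 x - 2 * f2 x + f3 x + 2 * f4 x - f5 x)
      = (∫ x, (f1 x - 2 * f2 x + f3 x + 2 * f4 x)) - ∫ x, f5 x :=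
    integral_sub (((j1.sub h2).add j3).add h4) j5
  have e2 : ∫ x, (f1 x - 2 * f2 x + f3 x + 2 * f4 x)
      = (∫ x, (f1 x - 2 * f2 x + f3 x)) + ∫ x, 2 * f4 x := integral_add ((j1.sub h2).add j3) h4
  have e3 : ∫ x, (f1 x - 2 * f2 x + f3 x) = (∫ x, (f1 x - 2 * f2 x)) + ∫ x, f3 x :=
    integral_add (j1.sub h2) j3
  have e4 : ∫ x, (f1 x - 2 * f2 x) = (∫ x, f1 x) - ∫ x, 2 * f2 x := integral_sub j1 h2
  rw [e1, e2, e3, e4, integral_const_mul, integral_const_mul]

/-- positivity of the remainder -/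
theorem rem_nonneg (h : MM ψ V c C M) (hV : ContDiff ℝ 2 V) {F u : E n → ℝ}
    (hF : ContDiff ℝ (⊤ : ℕ∞) F) (bF : BS F) (hu : ContDiff ℝ (⊤ : ℕ∞) u) (bu : BS u) :
    0 ≤ (∫ x, (∑ a, ∑ c, pd c (fld ψ u a) x * pd a (fld ψ u c) x) * Real.exp (-V x))
      - 2 * (∫ x, (∑ b, ∑ a, Uf ψ F a b x * pd a (fld ψ u b) x) * Real.exp (-V x))
      + (∫ x, (∑ b, Wf ψ F b b x) * Real.exp (-V x))
      + 2 * (∫ x, (∑ b, ∑ a, ∑ c, pd c (Kf ψ F a b) x * pd a (Uf ψ F c b) x)
          * Real.exp (-V x))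
      - ∫ x, (∑ b, ∑ a, ∑ c, pd c (fun y => tau ψ y a b) x * pd a (Wf ψ F c b) x)
          * Real.exp (-V x) := by
  have hw := (LL.exp_neg hV).lb
  have hs : ∀ b, LL (fld ψ u b) := fun b => ll_fld h (two_le hu) b
  have j1 : Integrable (fun x => (∑ a, ∑ c, pd c (fld ψ u a) x * pd a (fld ψ u c) x)
      * Real.exp (-V x)) :=
    LB.integrable ((lb_sum _ fun a _ => lb_sum _ fun c _ =>
      ((hs a).pd_lb c).mul ((hs c).pd_lb a)).mul hw)
      (bs_sum _ fun a _ => bs_sum _ fun c _ => ((bs_fld bu a).pd c).mul_right).mul_right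
  have j2 : Integrable (fun x => (∑ b, ∑ a, Uf ψ F a b x * pd a (fld ψ u b) x)
      * Real.exp (-V x)) :=
    LB.integrable ((lb_sum _ fun b _ => lb_sum _ fun a _ =>
      (ll_U h hF a b).lb.mul ((hs b).pd_lb a)).mul hw)
      (bs_sum _ fun b _ => bs_sum _ fun a _ => (bs_U bF a b).mul_right).mul_right
  have j3 : Integrable (fun x => (∑ b, Wf ψ F b b x) * Real.exp (-V x)) :=
    LB.integrable ((lb_sum _ fun b _ => (ll_W h hF b b).lb).mul hw)
      (bs_sum _ fun b _ => bs_W bF b b).mul_right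
  have j4 : Integrable (fun x => (∑ b, ∑ a, ∑ c, pd c (Kf ψ F a b) x * pd a (Uf ψ F c b) x)
      * Real.exp (-V x)) :=
    LB.integrable ((lb_sum _ fun b _ => lb_sum _ fun a _ => lb_sum _ fun c _ =>
      ((ll_K h hF a b).pd_lb c).mul ((ll_U h hF c b).pd_lb a)).mul hw)
      (bs_sum _ fun b _ => bs_sum _ fun a _ => bs_sum _ fun c _ =>
        ((bs_K bF a b).pd c).mul_right).mul_right
  have j5 : Integrable (fun x => (∑ b, ∑ a, ∑ c, pd c (fun y => tau ψ y a b) x
      * pd a (Wf ψ F c b) x) * Real.exp (-V x)) :=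
    LB.integrable ((lb_sum _ fun b _ => lb_sum _ fun a _ => lb_sum _ fun c _ =>
      ((ll_tau h a b).pd_lb c).mul ((ll_W h hF c b).pd_lb a)).mul hw)
      (bs_sum _ fun b _ => bs_sum _ fun a _ => bs_sum _ fun c _ =>
        ((bs_W bF c b).pd a).mul_left).mul_right
  rw [comb5 j1 j2 j3 j4 j5]
  refine integral_nonneg_of_ae ?_
  filter_upwards [rad_good h] with x hx
  have p1 := pos1 h hx hF
  have p2 := pos2 h hx hF hu
  have q1 : ∑ i, ∑ j, (pd i (fld ψ u j) x - Uf ψ F j i x) * (pd j (fld ψ u i) x - Uf ψ F i j x)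
      = (∑ a, ∑ c, pd c (fld ψ u a) x * pd a (fld ψ u c) x)
        - 2 * (∑ b, ∑ a, Uf ψ F a b x * pd a (fld ψ u b) x) + ∑ b, Wf ψ F b b x := by
    have r1 : ∑ i, ∑ j, (pd i (fld ψ u j) x - Uf ψ F j i x)
        * (pd j (fld ψ u i) x - Uf ψ F i j x)
        = (∑ i, ∑ j, pd i (fld ψ u j) x * pd j (fld ψ u i) x)
          - (∑ i, ∑ j, Uf ψ F i j x * pd i (fld ψ u j) x)
          - (∑ i, ∑ j, Uf ψ F j i x * pd j (fld ψ u i) x)
          + ∑ i, ∑ j, Uf ψ F i j x * Uf ψ F j i x := by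
      simp only [← Finset.sum_sub_distrib, ← Finset.sum_add_distrib]
      refine Finset.sum_congr rfl fun i _ => Finset.sum_congr rfl fun j _ => ?_
      ring
    have r2 : ∑ i, ∑ j, pd i (fld ψ u j) x * pd j (fld ψ u i) x
        = ∑ a, ∑ c, pd c (fld ψ u a) x * pd a (fld ψ u c) x := by
      refine Finset.sum_congr rfl fun i _ => Finset.sum_congr rfl fun j _ => ?_
      ring
    have r3 : ∑ i, ∑ j, Uf ψ F i j x * pd i (fld ψ u j) x
        = ∑ b, ∑ a, Uf ψ F a b x * pd a (fld ψ u b) x := by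
      rw [Finset.sum_comm]
    have r4 : ∑ i, ∑ j, Uf ψ F i j x * Uf ψ F j i x = ∑ b, Wf ψ F b b x := rfl
    rw [r1, r2, r3, r4]
    ring
  have q2 : ∑ i, ∑ j, ∑ b, pd j (Kf ψ F i b) x * pd i (Uf ψ F j b) x
      = ∑ b, ∑ a, ∑ c, pd c (Kf ψ F a b) x * pd a (Uf ψ F c b) x := by
    rw [Finset.sum_comm' (s := Finset.univ) (t := fun _ => Finset.univ) (t' := Finset.univ)
      (s' := fun _ => Finset.univ) (by simp)]
    rw [Finset.sum_comm]
    rw [Finset.sum_congr rfl fun i (_ : i ∈ Finset.univ) => Finset.sum_comm]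
    rw [Finset.sum_comm]
  have q3 : ∑ i, ∑ j, ∑ k, pd k (fun y => tau ψ y i j) x * pd i (Wf ψ F k j) x
      = ∑ b, ∑ a, ∑ c, pd c (fun y => tau ψ y a b) x * pd a (Wf ψ F c b) x := by
    rw [Finset.sum_comm]
  rw [q1] at p2
  rw [q2, q3] at p1
  have hp := Real.exp_pos (-V x)
  have fin := mul_nonneg (add_nonneg p2 p1) hp.le
  simp only [Pi.zero_apply]
  refine fin.trans (le_of_eq ?_)
  ring

/-- the key inequality, unnormalised -/
theorem keyInt (h : MM ψ V c C M) (hV : ContDiff ℝ 2 V) {F u : E n → ℝ}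
    (hF : ContDiff ℝ (⊤ : ℕ∞) F) (bF : BS F) (hu : ContDiff ℝ (⊤ : ℕ∞) u) (bu : BS u) :
    (∫ x, (hess V x * tau ψ x * hess F x * tau ψ x * hess F x * tau ψ x).trace
        * Real.exp (-V x))
      + (∫ x, (∑ a, ∑ b, hess V x a b * fld ψ u a x * fld ψ u b x) * Real.exp (-V x))
      ≤ (∫ x, (Lop ψ u x) ^ 2 * Real.exp (-V x))
        + 2 * ∫ x, (∑ b, fld ψ (fun z => Lop ψ F z + F z + u z) b x * Lop ψ (pd b F) x)
          * Real.exp (-V x) := by
  have hw := (LL.exp_neg hV).lb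
  have hG : LL (fun z => Lop ψ F z + F z) := (ll_Lop h hF).add (LL.of_c1 ((two_le hF).of_le
    (by norm_num)))
  have hL : ∀ b, LL (fun x => Lop ψ (pd b F) x) := fun b => ll_Lop h (pd_smooth hF b)
  have bL : ∀ b, BS (fun x => Lop ψ (pd b F) x) := fun b => bs_Lop (bF.pd b)
  have k1 : Integrable (fun x => (∑ b, fld ψ (fun z => Lop ψ F z + F z) b x
      * Lop ψ (pd b F) x) * Real.exp (-V x)) :=
    LB.integrable ((lb_sum _ fun b _ => (lb_fld h hG b).mul (hL b).lb).mul hw)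
      (bs_sum _ fun b _ => (bL b).mul_left).mul_right
  have k2 : Integrable (fun x => (∑ b, fld ψ u b x * Lop ψ (pd b F) x) * Real.exp (-V x)) :=
    LB.integrable ((lb_sum _ fun b _ => (ll_fld h (two_le hu) b).lb.mul (hL b).lb).mul hw)
      (bs_sum _ fun b _ => (bL b).mul_left).mul_right
  have e1 : ∫ x, (∑ b, fld ψ (fun z => Lop ψ F z + F z + u z) b x * Lop ψ (pd b F) x)
          * Real.exp (-V x)
      = (∫ x, (∑ b, fld ψ (fun z => Lop ψ F z + F z) b x * Lop ψ (pd b F) x)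
          * Real.exp (-V x))
        + ∫ x, (∑ b, fld ψ u b x * Lop ψ (pd b F) x) * Real.exp (-V x) := by
    rw [← integral_add k1 k2]
    refine integral_congr_ae ?_
    filter_upwards [hG.ae_diff] with x hx
    have du : DifferentiableAt ℝ u x := (two_le hu).differentiable (by norm_num) x
    rw [← add_mul, ← Finset.sum_add_distrib]
    congr 1
    refine Finset.sum_congr rfl fun b _ => ?_
    rw [← add_mul]
    congr 1
    unfold fld
    rw [← Finset.sum_add_distrib]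
    refine Finset.sum_congr rfl fun k _ => ?_
    rw [← mul_add]
    congr 1
    exact pd_add (f := fun z => Lop ψ F z + F z) hx du
  have e2 : ∫ x, (∑ a, ∑ b, hess V x a b * fld ψ u a x * fld ψ u b x) * Real.exp (-V x)
      = ∫ x, (∑ a, ∑ c, hess V x c a * fld ψ u a x * fld ψ u c x) * Real.exp (-V x) := by
    congr 1
    funext x
    congr 1
    rw [Finset.sum_comm]
    refine Finset.sum_congr rfl fun a _ => Finset.sum_congr rfl fun c _ => ?_
    ring
  have e3 : ∫ x, (hess V x * tau ψ x * hess F x * tau ψ x * hess F x * tau ψ x).trace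
        * Real.exp (-V x) = ∫ x, (∑ b, ∑ a, ∑ c, hess V x c a * Kf ψ F a b x * Uf ψ F c b x)
          * Real.exp (-V x) := by
    congr 1
    funext x
    rw [trI h hF x]
  have e4 : ∫ x, (hess V x * tau ψ x * hess F x * tau ψ x * hess F x * tau ψ x).trace
        * Real.exp (-V x) = ∫ x, (∑ b, ∑ a, ∑ c, hess V x c a * tau ψ x a b * Wf ψ F c b x)
          * Real.exp (-V x) := by
    congr 1
    funext x
    rw [trII h hF x]
  have a1 := eqI h hV hF bF
  have a2 := eqII h hV hF bF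
  have a3 := eqIII h hV hu bu
  have a4 := eqIV h hV hF bF hu
  have a5 := rem_nonneg h hV hF bF hu bu
  rw [← e3] at a1
  rw [← e4] at a2
  rw [e1, e2, a1, a3, a4]
  linarith

end

/-- **block ID**: the key inequality of `M/Stmts.lean` -/
theorem stmtKey568 : StmtKey := by
  intro n ψ V c C M hN h F u hF hu
  have hV : ContDiff ℝ 2 V := two_le hN.smooth
  have key := keyInt h hV hF.1 (BS.of_hcs hF.2) hu.1 (BS.of_hcs hu.2)
  have hZ : (0 : ℝ) ≤ ∫ x : E n, Real.exp (-V x) := integral_nonneg fun x => (Real.exp_pos _).le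
  unfold Ex
  rw [← add_div, ← mul_div_assoc, ← add_div]
  exact div_le_div_of_nonneg_right key hZ

end Vale.Agent.P227.M.Key568
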