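import Vale.Agent.P227.M.Key568.Sums
import Vale.Agent.P227.M.ID.QAlg987

/-! # P227/M, block ID (helper568): pointwise facts at the points where `τ` is differentiable -/

open MeasureTheory Set Filter Topology Metric
open scoped NNReal

namespace Vale.Agent.P227.M.Key568

open Vale.Agent.P227.M.Sw

variable {n : ℕ} {ψ V : E n → ℝ} {c C M : ℝ}

/-- `U = τ N` -/
noncomputable def Uf (ψ F : E n → ℝ) (a b : Fin n) : E n → ℝ := fld ψ (pd b F) a

/-- `K = τ N τ` -/
noncomputable def Kf (ψ F : E n → ℝ) (a b : Fin n) (x : E n) : ℝ :=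
  ∑ k, Uf ψ F a k x * tau ψ x k b

/-- `W = τ N τ N` -/
noncomputable def Wf (ψ F : E n → ℝ) (a b : Fin n) (x : E n) : ℝ :=
  ∑ k, Uf ψ F a k x * Uf ψ F k b x

lemma pd_smooth {F : E n → ℝ} (hF : ContDiff ℝ (⊤ : ℕ∞) F) (b : Fin n) :
    ContDiff ℝ (⊤ : ℕ∞) (pd b F) := by
  have h1 : ContDiff ℝ (⊤ : ℕ∞) (fderiv ℝ F) := hF.fderiv_right (by simp)
  exact h1.clm_apply contDiff_const

lemma two_le {F : E n → ℝ} (hF : ContDiff ℝ (⊤ : ℕ∞) F) : ContDiff ℝ 2 F :=
  by exact_mod_cast contDiff_infty.1 hF 2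

lemma pd2 {F : E n → ℝ} (hF : ContDiff ℝ (⊤ : ℕ∞) F) (b : Fin n) : ContDiff ℝ 2 (pd b F) :=
  two_le (pd_smooth hF b)

lemma ll_U (h : MM ψ V c C M) {F : E n → ℝ} (hF : ContDiff ℝ (⊤ : ℕ∞) F) (a b : Fin n) :
    LL (Uf ψ F a b) := ll_fld h (pd2 hF b) a

lemma bs_U {F : E n → ℝ} (hF : BS F) (a b : Fin n) : BS (Uf ψ F a b) := bs_fld (hF.pd b) a

lemma ll_K (h : MM ψ V c C M) {F : E n → ℝ} (hF : ContDiff ℝ (⊤ : ℕ∞) F) (a b : Fin n) :
    LL (Kf ψ F a b) := ll_sum _ fun k _ => (ll_U h hF a k).mul (ll_tau h k b)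

lemma bs_K {F : E n → ℝ} (hF : BS F) (a b : Fin n) : BS (Kf ψ F a b) :=
  bs_sum _ fun k _ => (bs_U hF a k).mul_right

lemma ll_W (h : MM ψ V c C M) {F : E n → ℝ} (hF : ContDiff ℝ (⊤ : ℕ∞) F) (a b : Fin n) :
    LL (Wf ψ F a b) := ll_sum _ fun k _ => (ll_U h hF a k).mul (ll_U h hF k b)

lemma bs_W {F : E n → ℝ} (hF : BS F) (a b : Fin n) : BS (Wf ψ F a b) :=
  bs_sum _ fun k _ => (bs_U hF a k).mul_right

lemma diff_fld {x : E n} (hx : Good ψ x) {g : E n → ℝ} (hg : ContDiff ℝ 2 g) (a : Fin n) :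
    DifferentiableAt ℝ (fld ψ g a) x := by
  unfold fld
  exact DifferentiableAt.fun_sum fun k _ => (hx.2 a k).mul (rad_pd_diff hg k x)

lemma U_eq (ψ F : E n → ℝ) (a b : Fin n) (x : E n) :
    Uf ψ F a b x = (tau ψ x * hess F x) a b := rfl

/-- derivative of `U` -/
lemma pd_U {x : E n} (hx : Good ψ x) {F : E n → ℝ} (hF : ContDiff ℝ (⊤ : ℕ∞) F)
    (k i j : Fin n) : pd k (Uf ψ F i j) x = ∑ c, (pd k (fun y => tau ψ y i c) x * hess F x c j
      + tau ψ x i c * hess (pd j F) x k c) := pd_fld hx (pd2 hF j) i k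

lemma diff_U {x : E n} (hx : Good ψ x) {F : E n → ℝ} (hF : ContDiff ℝ (⊤ : ℕ∞) F)
    (i j : Fin n) : DifferentiableAt ℝ (Uf ψ F i j) x := diff_fld hx (pd2 hF j) i

lemma pd_K {x : E n} (hx : Good ψ x) {F : E n → ℝ} (hF : ContDiff ℝ (⊤ : ℕ∞) F)
    (k i j : Fin n) : pd k (Kf ψ F i j) x = ∑ c, (pd k (Uf ψ F i c) x * tau ψ x c j
      + Uf ψ F i c x * pd k (fun y => tau ψ y c j) x) := by
  have e := pd_sum (i := k) (s := Finset.univ) (f := fun c y => Uf ψ F i c y * tau ψ y c j)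
    fun c _ => (diff_U hx hF i c).mul (hx.2 c j)
  refine e.trans (Finset.sum_congr rfl fun c _ => ?_)
  rw [pd_mul (diff_U hx hF i c) (hx.2 c j)]

lemma pd_W {x : E n} (hx : Good ψ x) {F : E n → ℝ} (hF : ContDiff ℝ (⊤ : ℕ∞) F)
    (k i j : Fin n) : pd k (Wf ψ F i j) x = ∑ c, (pd k (Uf ψ F i c) x * Uf ψ F c j x
      + Uf ψ F i c x * pd k (Uf ψ F c j) x) := by
  have e := pd_sum (i := k) (s := Finset.univ) (f := fun c y => Uf ψ F i c y * Uf ψ F c j y)
    fun c _ => (diff_U hx hF i c).mul (diff_U hx hF c j)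
  refine e.trans (Finset.sum_congr rfl fun c _ => ?_)
  rw [pd_mul (diff_U hx hF i c) (diff_U hx hF c j)]

/-- third derivatives commute -/
lemma third1 {F : E n → ℝ} (hF : ContDiff ℝ (⊤ : ℕ∞) F) (x : E n) (k i j : Fin n) :
    hess (pd j F) x k i = hess (pd j F) x i k := rad_hess_symm (pd2 hF j) x k i

lemma third2 {F : E n → ℝ} (hF : ContDiff ℝ (⊤ : ℕ∞) F) (x : E n) (k i j : Fin n) :
    hess (pd j F) x k i = hess (pd i F) x k j := by
  have e : pd i (pd j F) = pd j (pd i F) := by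
    funext y
    exact rad_hess_symm (two_le hF) y i j
  show pd k (pd i (pd j F)) x = pd k (pd j (pd i F)) x
  rw [e]

lemma qf_eq_dot (A : Matrix (Fin n) (Fin n) ℝ) (v : E n) :
    qf A v = dotProduct v.ofLp (A.mulVec v.ofLp) := by
  unfold qf dotProduct Matrix.mulVec dotProduct
  refine Finset.sum_congr rfl fun i _ => ?_
  rw [Finset.mul_sum]
  refine Finset.sum_congr rfl fun j _ => ?_
  ring

lemma hess_posDef (h : MM ψ V c C M) (x : E n) : (hess ψ x).PosDef := by
  refine Matrix.PosDef.of_dotProduct_mulVec_pos ?_ fun v hv => ?_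
  · ext i j
    simpa using rad_hess_symm h.C2 x j i
  · have h1 := h.lower x (WithLp.toLp 2 v)
    rw [qf_eq_dot] at h1
    have h2 : 0 < ‖(WithLp.toLp 2 v : E n)‖ := by
      rw [norm_pos_iff]
      intro h0
      apply hv
      have := congrArg WithLp.ofLp h0
      simpa using this
    have h3 : 0 < c * ‖(WithLp.toLp 2 v : E n)‖ ^ 2 := mul_pos h.c_pos (pow_pos h2 2)
    simpa using h3.trans_le h1

lemma tau_transpose (h : MM ψ V c C M) (x : E n) : (tau ψ x).transpose = tau ψ x := by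
  ext i j
  exact rad_tau_symm h x j i

open scoped MatrixOrder in
lemma exists_sq (h : MM ψ V c C M) (x : E n) :
    ∃ b : Matrix (Fin n) (Fin n) ℝ, hess ψ x = b.transpose * b := by
  obtain ⟨B, hB⟩ := CStarAlgebra.nonneg_iff_eq_star_mul_self.1 (hess_posDef h x).posSemidef.nonneg
  refine ⟨B, ?_⟩
  rw [hB, Matrix.star_eq_conjTranspose, Matrix.conjTranspose_eq_transpose_of_trivial]

/-- the pointwise inequality, part 1 -/
theorem pos1 (h : MM ψ V c C M) {x : E n} (hx : Good ψ x) {F : E n → ℝ}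
    (hF : ContDiff ℝ (⊤ : ℕ∞) F) :
    0 ≤ 2 * (∑ i, ∑ j, ∑ b, pd j (Kf ψ F i b) x * pd i (Uf ψ F j b) x)
      - ∑ i, ∑ j, ∑ k, pd k (fun y => tau ψ y i j) x * pd i (Wf ψ F k j) x := by
  obtain ⟨b, hb⟩ := exists_sq h x
  refine QAlg.key_alg (tau ψ x) (hess ψ x) b (hess F x)
    (fun k i j => pd k (fun y => tau ψ y i j) x) (fun k i j => hess (pd j F) x k i)
    (tau_transpose h x) (rad_tau_mul h x) hb ?_ ?_ ?_ ?_ ?_ (tau ψ x * hess F x) rfl
    (fun k i j => pd k (Uf ψ F i j) x) (fun k i j => pd k (Kf ψ F i j) x)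
    (fun k i j => pd k (Wf ψ F j i) x) ?_ ?_ ?_
  · ext i j
    exact rad_hess_symm (two_le hF) x j i
  · funext k i j
    show pd k (fun y => tau ψ y j i) x = pd k (fun y => tau ψ y i j) x
    congr 1
    funext y
    exact rad_tau_symm h y j i
  · funext k i j
    exact third2 hF x k j i
  · funext k i j
    exact third1 hF x i k j
  · funext k i j
    exact (rad_T h hx i k j)
  · intro k i j
    exact pd_U hx hF k i j
  · intro k i j
    exact pd_K hx hF k i j
  · intro k i j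
    exact pd_W hx hF k j i

/-- the pointwise inequality, part 2 -/
theorem pos2 (h : MM ψ V c C M) {x : E n} (hx : Good ψ x) {F u : E n → ℝ}
    (hF : ContDiff ℝ (⊤ : ℕ∞) F) (hu : ContDiff ℝ (⊤ : ℕ∞) u) :
    0 ≤ ∑ i, ∑ j, (pd i (fld ψ u j) x - Uf ψ F j i x) * (pd j (fld ψ u i) x - Uf ψ F i j x) := by
  obtain ⟨b, hb⟩ := exists_sq h x
  let X : Matrix (Fin n) (Fin n) ℝ := fun i j => pd i (fld ψ u j) x - Uf ψ F j i x
  refine QAlg.tr_sq_nonneg (tau ψ x) (hess ψ x) b (rad_tau_mul h x) hb X ?_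
  -- symmetry
  have key : ∀ i j, (tau ψ x * X) i j
      = ∑ d, (∑ e, tau ψ x i e * pd e (fun y => tau ψ y j d) x) * pd d u x
        + (∑ e, ∑ d, tau ψ x i e * tau ψ x j d * hess u x e d)
        - ∑ e, ∑ d, tau ψ x i e * tau ψ x j d * hess F x d e := by
    intro i j
    have e1 : ∀ e, tau ψ x i e * (pd e (fld ψ u j) x - Uf ψ F j e x)
        = ∑ d, (tau ψ x i e * pd e (fun y => tau ψ y j d) x * pd d u x
          + tau ψ x i e * tau ψ x j d * hess u x e d
          - tau ψ x i e * tau ψ x j d * hess F x d e) := by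
      intro e
      rw [pd_fld hx (two_le hu)]
      have e2 : Uf ψ F j e x = ∑ d, tau ψ x j d * hess F x d e := rfl
      rw [e2, ← Finset.sum_sub_distrib, Finset.mul_sum]
      refine Finset.sum_congr rfl fun d _ => ?_
      ring
    rw [Matrix.mul_apply]
    rw [Finset.sum_congr rfl fun e _ => e1 e]
    simp only [Finset.sum_sub_distrib, Finset.sum_add_distrib, Finset.sum_mul]
    congr 2
    rw [Finset.sum_comm]
  ext i j
  rw [Matrix.transpose_apply, key, key]
  have a1 : ∀ d, ∑ e, tau ψ x j e * pd e (fun y => tau ψ y i d) x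
      = ∑ e, tau ψ x i e * pd e (fun y => tau ψ y j d) x := fun d => rad_T h hx j i d
  have a2 : ∑ e, ∑ d, tau ψ x j e * tau ψ x i d * hess u x e d
      = ∑ e, ∑ d, tau ψ x i e * tau ψ x j d * hess u x e d := by
    rw [Finset.sum_comm]
    refine Finset.sum_congr rfl fun e _ => Finset.sum_congr rfl fun d _ => ?_
    rw [rad_hess_symm (two_le hu) x d e]
    ring
  have a3 : ∑ e, ∑ d, tau ψ x j e * tau ψ x i d * hess F x d e
      = ∑ e, ∑ d, tau ψ x i e * tau ψ x j d * hess F x d e := by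
    rw [Finset.sum_comm]
    refine Finset.sum_congr rfl fun e _ => Finset.sum_congr rfl fun d _ => ?_
    rw [rad_hess_symm (two_le hF) x d e]
    ring
  simp only [a1, a2, a3]

/-- the derivative of `LF + F` -/
lemma pd_Lop (h : MM ψ V c C M) {x : E n} (hx : Good ψ x) {F : E n → ℝ}
    (hF : ContDiff ℝ (⊤ : ℕ∞) F) (k : Fin n) :
    pd k (fun z => Lop ψ F z + F z) x = Lop ψ (pd k F) x
      + ∑ i, ∑ j, pd k (fun y => tau ψ y i j) x * hess F x i j := by
  have dF : DifferentiableAt ℝ F x := (two_le hF).differentiable (by norm_num) x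
  have dp : ∀ i, DifferentiableAt ℝ (pd i F) x := fun i => rad_pd_diff (two_le hF) i x
  have dh : ∀ i j, DifferentiableAt ℝ (fun y => hess F y i j) x := fun i j =>
    rad_pd_diff (pd2 hF j) i x
  have dx : ∀ i, DifferentiableAt ℝ (fun y : E n => y i) x := fun i => rad_diff_coord i x
  have d1 : ∀ i, DifferentiableAt ℝ (fun y => ∑ j, tau ψ y i j * hess F y i j) x := fun i =>
    DifferentiableAt.fun_sum fun j _ => (hx.2 i j).mul (dh i j)
  have d2 : DifferentiableAt ℝ (fun y => ∑ i, ∑ j, tau ψ y i j * hess F y i j) x :=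
    DifferentiableAt.fun_sum fun i _ => d1 i
  have d3 : DifferentiableAt ℝ (fun y : E n => ∑ i, y i * pd i F y) x :=
    DifferentiableAt.fun_sum fun i _ => (dx i).mul (dp i)
  have e1 : pd k (fun y => ∑ i, ∑ j, tau ψ y i j * hess F y i j) x
      = ∑ i, ∑ j, (pd k (fun y => tau ψ y i j) x * hess F x i j
        + tau ψ x i j * hess (pd k F) x i j) := by
    refine (pd_sum (i := k) (s := Finset.univ)
      (f := fun i y => ∑ j, tau ψ y i j * hess F y i j) fun i _ => d1 i).trans ?_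
    refine Finset.sum_congr rfl fun i _ => ?_
    refine (pd_sum (i := k) (s := Finset.univ)
      (f := fun j y => tau ψ y i j * hess F y i j) fun j _ => (hx.2 i j).mul (dh i j)).trans ?_
    refine Finset.sum_congr rfl fun j _ => ?_
    rw [pd_mul (hx.2 i j) (dh i j)]
    have e : pd k (fun y => hess F y i j) x = hess (pd k F) x i j := by
      have s1 : hess (pd j F) x k i = hess (pd j F) x i k := third1 hF x k i j
      have s2 : hess (pd j F) x i k = hess (pd k F) x i j := third2 hF x i k j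
      exact s1.trans s2
    rw [e]
  have e2 : pd k (fun y : E n => ∑ i, y i * pd i F y) x
      = pd k F x + ∑ i, x i * pd i (pd k F) x := by
    refine (pd_sum (i := k) (s := Finset.univ)
      (f := fun i (y : E n) => y i * pd i F y) fun i _ => (dx i).mul (dp i)).trans ?_
    have e3 : ∀ i, pd k (fun y : E n => y i * pd i F y) x
        = (if i = k then 1 else 0) * pd i F x + x i * pd i (pd k F) x := by
      intro i
      rw [pd_mul (dx i) (dp i), pd_coord]
      congr 2
      exact rad_hess_symm (two_le hF) x k i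
    rw [Finset.sum_congr rfl fun i _ => e3 i, Finset.sum_add_distrib]
    simp
  have e5 := pd_add (i := k) (f := fun z => (∑ i, ∑ j, tau ψ z i j * hess F z i j)
      - ∑ i, z i * pd i F z) (g := F) (d2.sub d3) dF
  have e6 := pd_sub (i := k) d2 d3
  refine e5.trans ?_
  rw [e6, e1, e2]
  simp only [Finset.sum_add_distrib]
  unfold Lop
  ring

/-- `δ K = - τ ∇ (LF + F)` -/
lemma div_K (h : MM ψ V c C M) {x : E n} (hx : Good ψ x) {F : E n → ℝ}
    (hF : ContDiff ℝ (⊤ : ℕ∞) F) (b : Fin n) :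
    ∑ a, (pd a V x * Kf ψ F a b x - pd a (Kf ψ F a b) x)
      = - fld ψ (fun z => Lop ψ F z + F z) b x := by
  have e1 : ∑ a, (pd a V x * Kf ψ F a b x - pd a (Kf ψ F a b) x)
      = ∑ k, (∑ a, (pd a V x * Uf ψ F a k x - pd a (Uf ψ F a k) x)) * tau ψ x k b
        - ∑ a, ∑ k, Uf ψ F a k x * pd a (fun y => tau ψ y k b) x := by
    have e : ∀ a, pd a V x * Kf ψ F a b x - pd a (Kf ψ F a b) x
        = ∑ k, ((pd a V x * Uf ψ F a k x - pd a (Uf ψ F a k) x) * tau ψ x k b)
          - ∑ k, Uf ψ F a k x * pd a (fun y => tau ψ y k b) x := by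
      intro a
      rw [pd_K hx hF]
      unfold Kf
      rw [Finset.mul_sum, ← Finset.sum_sub_distrib, ← Finset.sum_sub_distrib]
      refine Finset.sum_congr rfl fun k _ => ?_
      ring
    rw [Finset.sum_congr rfl fun a _ => e a, Finset.sum_sub_distrib, Finset.sum_comm]
    congr 1
    refine Finset.sum_congr rfl fun k _ => ?_
    rw [Finset.sum_mul]
  have e2 : ∀ k, ∑ a, (pd a V x * Uf ψ F a k x - pd a (Uf ψ F a k) x) = - Lop ψ (pd k F) x :=
    fun k => div_fld h hx (pd2 hF k)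
  have e3 : ∑ a, ∑ k, Uf ψ F a k x * pd a (fun y => tau ψ y k b) x
      = ∑ e, tau ψ x b e * ∑ i, ∑ j, pd e (fun y => tau ψ y i j) x * hess F x i j := by
    have r1 : ∑ a, ∑ k, Uf ψ F a k x * pd a (fun y => tau ψ y k b) x
        = ∑ l, ∑ k, hess F x l k * ∑ a, tau ψ x l a * pd a (fun y => tau ψ y b k) x := by
      have r2 : ∀ a k, Uf ψ F a k x * pd a (fun y => tau ψ y k b) x
          = ∑ l, hess F x l k * (tau ψ x l a * pd a (fun y => tau ψ y b k) x) := by
        intro a k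
        have r3 : Uf ψ F a k x = ∑ l, tau ψ x a l * hess F x l k := rfl
        have r4 : pd a (fun y => tau ψ y k b) x = pd a (fun y => tau ψ y b k) x := by
          congr 1
          funext y
          exact rad_tau_symm h y k b
        rw [r3, r4, Finset.sum_mul]
        refine Finset.sum_congr rfl fun l _ => ?_
        rw [rad_tau_symm h x a l]
        ring
      rw [Finset.sum_congr rfl fun a _ => Finset.sum_congr rfl fun k _ => r2 a k]
      rw [Finset.sum_congr rfl fun a (_ : a ∈ Finset.univ) => Finset.sum_comm]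
      rw [Finset.sum_comm]
      refine Finset.sum_congr rfl fun l _ => ?_
      rw [Finset.sum_comm]
      refine Finset.sum_congr rfl fun k _ => ?_
      rw [Finset.mul_sum]
    have r5 : ∑ e, tau ψ x b e * ∑ i, ∑ j, pd e (fun y => tau ψ y i j) x * hess F x i j
        = ∑ l, ∑ k, hess F x l k * ∑ a, tau ψ x b a * pd a (fun y => tau ψ y l k) x := by
      simp only [Finset.mul_sum]
      rw [Finset.sum_comm]
      refine Finset.sum_congr rfl fun l _ => ?_
      rw [Finset.sum_comm]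
      refine Finset.sum_congr rfl fun k _ => Finset.sum_congr rfl fun a _ => ?_
      ring
    rw [r1, r5]
    refine Finset.sum_congr rfl fun l _ => Finset.sum_congr rfl fun k _ => ?_
    rw [rad_T h hx l b k]
  rw [e1, e3]
  unfold fld
  rw [← Finset.sum_neg_distrib, ← Finset.sum_sub_distrib]
  refine Finset.sum_congr rfl fun k _ => ?_
  rw [e2, pd_Lop h hx hF, rad_tau_symm h x b k]
  ring

end Vale.Agent.P227.M.Key568
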