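import Vale.Agent.P227.M.Stmts

/-! # P227/M, block ID: almost everywhere calculus for `τ = (D²ψ)⁻¹`, `ψ ∈ C^{2,1}` (helper497)

`D²ψ` and `τ` are Lipschitz, hence differentiable a.e. (Rademacher). At such points: symmetry of the third derivatives,
the derivative of `τ`, the derivative of the Monge-Ampere equation, the divergence identity and the total symmetry of `τ ∂τ`. -/

set_option linter.all false

open MeasureTheory Filter
open scoped Topology

namespace Vale.Agent.P227.M.Key568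

variable {n : ℕ}

theorem rad_fderiv (f : E n → ℝ) (x v : E n) : fderiv ℝ f x v = ∑ i, v i * pd i f x := by
  have hv : v = ∑ i, v i • (ei i : E n) := by
    ext j
    simp [ei, Pi.single_apply]
  conv_lhs => rw [hv]
  rw [map_sum]
  refine Finset.sum_congr rfl fun i _ => ?_
  rw [map_smul, smul_eq_mul]
  rfl

theorem pd_add {i : Fin n} {f g : E n → ℝ} {x : E n} (hf : DifferentiableAt ℝ f x) (hg : DifferentiableAt ℝ g x) :
    pd i (fun y => f y + g y) x = pd i f x + pd i g x := by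
  unfold pd
  rw [fderiv_fun_add hf hg]
  rfl

theorem pd_sub {i : Fin n} {f g : E n → ℝ} {x : E n} (hf : DifferentiableAt ℝ f x) (hg : DifferentiableAt ℝ g x) :
    pd i (fun y => f y - g y) x = pd i f x - pd i g x := by
  unfold pd
  rw [fderiv_fun_sub hf hg]
  rfl

theorem pd_mul {i : Fin n} {f g : E n → ℝ} {x : E n} (hf : DifferentiableAt ℝ f x) (hg : DifferentiableAt ℝ g x) :
    pd i (fun y => f y * g y) x = pd i f x * g x + f x * pd i g x := by
  unfold pd
  rw [fderiv_fun_mul hf hg]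
  simp only [ContinuousLinearMap.add_apply, ContinuousLinearMap.smul_apply, smul_eq_mul]
  ring

theorem pd_sum {ι : Type*} {s : Finset ι} {i : Fin n} {f : ι → E n → ℝ} {x : E n}
    (hf : ∀ a ∈ s, DifferentiableAt ℝ (f a) x) :
    pd i (fun y => ∑ a ∈ s, f a y) x = ∑ a ∈ s, pd i (f a) x := by
  unfold pd
  rw [fderiv_fun_sum hf]
  simp only [ContinuousLinearMap.sum_apply]

theorem pd_const (i : Fin n) (c : ℝ) (x : E n) : pd i (fun _ => c) x = 0 := by
  unfold pd
  simp

theorem pd_coord (i j : Fin n) (x : E n) : pd i (fun y : E n => y j) x = if j = i then 1 else 0 := by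
  unfold pd
  have h : (fun y : E n => y j) = (EuclideanSpace.proj j : E n →L[ℝ] ℝ) := rfl
  rw [h, ContinuousLinearMap.fderiv]
  simp [ei]

theorem rad_diff_coord (j : Fin n) (x : E n) : DifferentiableAt ℝ (fun y : E n => y j) x := by
  have h : (fun y : E n => y j) = (EuclideanSpace.proj j : E n →L[ℝ] ℝ) := rfl
  rw [h]
  exact (EuclideanSpace.proj j : E n →L[ℝ] ℝ).differentiableAt

/-- partial derivatives of a `C²` function are `C¹` -/
theorem rad_pd_c1 {ψ : E n → ℝ} (h : ContDiff ℝ 2 ψ) (j : Fin n) : ContDiff ℝ 1 (pd j ψ) := by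
  have h1 : ContDiff ℝ 1 (fderiv ℝ ψ) := h.fderiv_right (m := 1) (by norm_num)
  exact h1.clm_apply contDiff_const

theorem rad_pd_diff {ψ : E n → ℝ} (h : ContDiff ℝ 2 ψ) (j : Fin n) (x : E n) : DifferentiableAt ℝ (pd j ψ) x :=
  (rad_pd_c1 h j).differentiable (by norm_num) x

theorem rad_hess_fderiv {ψ : E n → ℝ} (h : ContDiff ℝ 2 ψ) (x : E n) (i j : Fin n) :
    hess ψ x i j = fderiv ℝ (fderiv ℝ ψ) x (ei i) (ei j) := by
  have h1 : ContDiff ℝ 1 (fderiv ℝ ψ) := h.fderiv_right (m := 1) (by norm_num)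
  have h2 : HasFDerivAt (fderiv ℝ ψ) (fderiv ℝ (fderiv ℝ ψ) x) x := (h1.differentiable (by norm_num) x).hasFDerivAt
  show fderiv ℝ (fun y => fderiv ℝ ψ y (ei j)) x (ei i) = _
  have h3 := (h2.clm_apply (hasFDerivAt_const (ei j : E n) x)).fderiv
  rw [h3]
  simp

theorem rad_hess_symm {ψ : E n → ℝ} (h : ContDiff ℝ 2 ψ) (x : E n) (i j : Fin n) :
    hess ψ x i j = hess ψ x j i := by
  rw [rad_hess_fderiv h, rad_hess_fderiv h]
  have h1 : ContDiff ℝ 1 (fderiv ℝ ψ) := h.fderiv_right (m := 1) (by norm_num)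
  exact second_derivative_symmetric (f := ψ) (f' := fderiv ℝ ψ) (f'' := fderiv ℝ (fderiv ℝ ψ) x)
    (fun y => (h.differentiable (by norm_num) y).hasFDerivAt)
    ((h1.differentiable (by norm_num) x).hasFDerivAt) (ei i) (ei j)

theorem rad_hess_cont {ψ : E n → ℝ} (h : ContDiff ℝ 2 ψ) (i j : Fin n) : Continuous fun x => hess ψ x i j := by
  have h1 : ContDiff ℝ 1 (pd j ψ) := rad_pd_c1 h j
  exact (h1.continuous_fderiv (by norm_num)).clm_apply continuous_const

/-- symmetry of the third derivatives at points where `D²ψ` is differentiable -/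
theorem rad_third {ψ : E n → ℝ} (h : ContDiff ℝ 2 ψ) {x : E n}
    (hd : ∀ i j, DifferentiableAt ℝ (fun y => hess ψ y i j) x) (k i j : Fin n) :
    pd k (fun y => hess ψ y i j) x = pd i (fun y => hess ψ y k j) x := by
  have hg : ContDiff ℝ 1 (pd j ψ) := rad_pd_c1 h j
  have e : fderiv ℝ (pd j ψ) = fun y => ∑ i, hess ψ y i j • (EuclideanSpace.proj i : E n →L[ℝ] ℝ) := by
    funext y
    ext v
    rw [rad_fderiv]
    simp only [ContinuousLinearMap.sum_apply, ContinuousLinearMap.smul_apply, smul_eq_mul]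
    refine Finset.sum_congr rfl fun i _ => ?_
    rw [mul_comm]
    rfl
  have hdd : DifferentiableAt ℝ (fderiv ℝ (pd j ψ)) x := by
    rw [e]
    exact DifferentiableAt.fun_sum fun i _ => (hd i j).smul_const _
  have hs := second_derivative_symmetric_of_eventually (f := pd j ψ) (f' := fderiv ℝ (pd j ψ))
    (f'' := fderiv ℝ (fderiv ℝ (pd j ψ)) x)
    (Eventually.of_forall fun y => (hg.differentiable (by norm_num) y).hasFDerivAt) hdd.hasFDerivAt (ei k) (ei i)
  have h3 : ∀ a b : Fin n, pd a (fun y => hess ψ y b j) x = fderiv ℝ (fderiv ℝ (pd j ψ)) x (ei a) (ei b) := by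
    intro a b
    show fderiv ℝ (fun y => fderiv ℝ (pd j ψ) y (ei b)) x (ei a) = _
    have h4 := (hdd.hasFDerivAt.clm_apply (hasFDerivAt_const (ei b : E n) x)).fderiv
    rw [h4]
    simp
  rw [h3, h3, hs]

/-- derivative of the determinant -/
theorem rad_det {A : E n → Matrix (Fin n) (Fin n) ℝ} {x : E n}
    (h : ∀ i j, DifferentiableAt ℝ (fun y => A y i j) x) (k : Fin n) :
    DifferentiableAt ℝ (fun y => (A y).det) x ∧
    pd k (fun y => (A y).det) x = ∑ i, ∑ j, (A x).adjugate j i * pd k (fun y => A y i j) x := by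
  let D : ContinuousMultilinearMap ℝ (fun _ : Fin n => Fin n → ℝ) ℝ :=
    { toMultilinearMap := (Matrix.detRowAlternating (n := Fin n) (R := ℝ)).toMultilinearMap
      cont := by
        show Continuous fun M : Fin n → Fin n → ℝ => Matrix.det M
        exact Continuous.matrix_det continuous_id }
  let A' : E n → Fin n → Fin n → ℝ := fun y i j => A y i j
  let L : E n →L[ℝ] (Fin n → Fin n → ℝ) :=
    ContinuousLinearMap.pi fun i => ContinuousLinearMap.pi fun j => fderiv ℝ (fun y => A y i j) x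
  have hA : HasFDerivAt A' L x := by
    rw [hasFDerivAt_pi]
    intro i
    rw [hasFDerivAt_pi]
    intro j
    exact (h i j).hasFDerivAt
  have hD : HasFDerivAt (fun y => (A y).det) ((D.linearDeriv (A' x)).comp L) x :=
    (D.hasFDerivAt (A' x)).comp x hA
  refine ⟨hD.differentiableAt, ?_⟩
  unfold pd
  rw [hD.fderiv]
  have h0 : ((D.linearDeriv (A' x)).comp L) (ei k) = ∑ i, D (Function.update (A' x) i (L (ei k) i)) :=
    ContinuousMultilinearMap.linearDeriv_apply D (A' x) (L (ei k))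
  rw [h0]
  refine Finset.sum_congr rfl fun i _ => ?_
  have h1 : D (Function.update (A' x) i (L (ei k) i)) =
      (Matrix.cramer (A x).transpose) (fun j => fderiv ℝ (fun y => A y i j) x (ei k)) i := by
    rw [Matrix.cramer_transpose_apply]
    rfl
  rw [h1, Matrix.cramer_eq_adjugate_mulVec, ← Matrix.adjugate_transpose]
  rfl

section MMs

variable {ψ V : E n → ℝ} {c C M : ℝ}

theorem rad_qf (A : Matrix (Fin n) (Fin n) ℝ) (v : E n) : qf A v = ∑ i, v i * (A.mulVec v) i := by
  unfold qf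
  refine Finset.sum_congr rfl fun i _ => ?_
  rw [Matrix.mulVec, dotProduct, Finset.mul_sum]
  exact Finset.sum_congr rfl fun j _ => by ring

/-- a coercive matrix is invertible -/
theorem rad_det_ne {A : Matrix (Fin n) (Fin n) ℝ} {c : ℝ} (hc : 0 < c) (hA : ∀ v : E n, c * ‖v‖ ^ 2 ≤ qf A v) :
    A.det ≠ 0 := by
  intro h0
  obtain ⟨v, hv, hv0⟩ := Matrix.exists_mulVec_eq_zero_iff.2 h0
  have h := hA (WithLp.toLp 2 v)
  rw [rad_qf] at h
  have h1 : (A.mulVec (WithLp.toLp 2 v : E n)) = 0 := hv0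
  rw [h1] at h
  simp only [Pi.zero_apply, mul_zero, Finset.sum_const_zero] at h
  have h2 : (WithLp.toLp 2 v : E n) = 0 := by
    have : ‖(WithLp.toLp 2 v : E n)‖ ^ 2 ≤ 0 := by nlinarith
    have h3 : ‖(WithLp.toLp 2 v : E n)‖ = 0 := by nlinarith [norm_nonneg (WithLp.toLp 2 v : E n)]
    exact norm_eq_zero.1 h3
  apply hv
  funext i
  have := congrArg (fun w : E n => w i) h2
  simpa using this

theorem rad_norm_sq (v : E n) : ‖v‖ ^ 2 = ∑ i, v i ^ 2 := by
  rw [EuclideanSpace.norm_sq_eq]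
  simp

theorem rad_abs_le (v : E n) (i : Fin n) : |v i| ≤ ‖v‖ := by
  have h := PiLp.norm_apply_le v i
  simpa using h

/-- entries of the inverse of a coercive symmetric matrix -/
theorem rad_inv_le {A : Matrix (Fin n) (Fin n) ℝ} {c : ℝ} (hc : 0 < c) (hA : ∀ v : E n, c * ‖v‖ ^ 2 ≤ qf A v)
    (i j : Fin n) : |A⁻¹ i j| ≤ 1 / c := by
  have hdet : IsUnit A.det := isUnit_iff_ne_zero.2 (rad_det_ne hc hA)
  set w : E n := WithLp.toLp 2 (fun k => A⁻¹ k j) with hw
  have h1 : (A.mulVec w) = fun k => if k = j then 1 else 0 := by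
    funext k
    have h2 := congrFun (congrFun (Matrix.mul_nonsing_inv A hdet) k) j
    rw [Matrix.mul_apply, Matrix.one_apply] at h2
    exact h2
  have h3 := hA w
  rw [rad_qf, h1] at h3
  simp only [mul_ite, mul_one, mul_zero, Finset.sum_ite_eq', Finset.mem_univ, if_true] at h3
  have h4 : w j ≤ ‖w‖ := (le_abs_self _).trans (rad_abs_le w j)
  have h5 : c * ‖w‖ ^ 2 ≤ ‖w‖ := h3.trans h4
  have h6 : ‖w‖ ≤ 1 / c := by
    rw [le_div_iff₀ hc]
    by_cases h0 : ‖w‖ = 0
    · rw [h0, zero_mul]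
      exact zero_le_one
    · have hp : 0 < ‖w‖ := lt_of_le_of_ne (norm_nonneg _) (Ne.symm h0)
      nlinarith
  exact (rad_abs_le w i).trans h6

theorem rad_tau_mul (h : MM ψ V c C M) (x : E n) : tau ψ x * hess ψ x = 1 :=
  Matrix.nonsing_inv_mul _ (isUnit_iff_ne_zero.2 (rad_det_ne h.c_pos (h.lower x)))

theorem rad_mul_tau (h : MM ψ V c C M) (x : E n) : hess ψ x * tau ψ x = 1 :=
  Matrix.mul_nonsing_inv _ (isUnit_iff_ne_zero.2 (rad_det_ne h.c_pos (h.lower x)))

theorem rad_tau_le (h : MM ψ V c C M) (x : E n) (i j : Fin n) : |tau ψ x i j| ≤ 1 / c :=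
  rad_inv_le h.c_pos (h.lower x) i j

theorem rad_tau_symm (h : MM ψ V c C M) (x : E n) (i j : Fin n) : tau ψ x i j = tau ψ x j i := by
  have h1 : (hess ψ x).transpose = hess ψ x := by
    ext a b
    exact rad_hess_symm h.C2 x b a
  have h2 : (tau ψ x).transpose = tau ψ x := by
    unfold tau
    rw [Matrix.transpose_nonsing_inv, h1]
  exact congrFun (congrFun h2 j) i

theorem rad_tau_sub (h : MM ψ V c C M) (x y : E n) :
    tau ψ x - tau ψ y = tau ψ x * (hess ψ y - hess ψ x) * tau ψ y := by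
  rw [Matrix.mul_sub, rad_tau_mul h, Matrix.sub_mul, Matrix.mul_assoc, rad_mul_tau h, Matrix.mul_one, Matrix.one_mul]

/-- `τ` is Lipschitz -/
theorem rad_tau_lip (h : MM ψ V c C M) (x y : E n) (i j : Fin n) :
    |tau ψ x i j - tau ψ y i j| ≤ ((n : ℝ) * n * (1 / c) * |M| * (1 / c)) * ‖x - y‖ := by
  have h1 : tau ψ x i j - tau ψ y i j =
      ∑ l, ∑ k, tau ψ x i k * (hess ψ y k l - hess ψ x k l) * tau ψ y l j := by
    have h2 := congrFun (congrFun (rad_tau_sub h x y) i) j
    rw [Matrix.mul_apply] at h2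
    have h3 : ∀ l, (tau ψ x * (hess ψ y - hess ψ x)) i l = ∑ k, tau ψ x i k * (hess ψ y k l - hess ψ x k l) :=
      fun l => by rw [Matrix.mul_apply]; rfl
    simp only [h3, Finset.sum_mul] at h2
    exact h2
  rw [h1]
  have hc : 0 ≤ 1 / c := by have := h.c_pos; positivity
  have h4 : ∀ l k, |tau ψ x i k * (hess ψ y k l - hess ψ x k l) * tau ψ y l j| ≤
      (1 / c) * (|M| * ‖x - y‖) * (1 / c) := by
    intro l k
    rw [abs_mul, abs_mul]
    have h5 : |hess ψ y k l - hess ψ x k l| ≤ |M| * ‖x - y‖ := by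
      refine (h.lip k l y x).trans ?_
      rw [norm_sub_rev y x]
      exact mul_le_mul_of_nonneg_right (le_abs_self M) (norm_nonneg _)
    exact mul_le_mul (mul_le_mul (rad_tau_le h x i k) h5 (abs_nonneg _) hc) (rad_tau_le h y l j) (abs_nonneg _)
      (by positivity)
  refine (Finset.abs_sum_le_sum_abs _ _).trans ?_
  refine (Finset.sum_le_sum fun l _ => (Finset.abs_sum_le_sum_abs _ _).trans
    (Finset.sum_le_sum fun k _ => h4 l k)).trans ?_
  simp only [Finset.sum_const, Finset.card_univ, Fintype.card_fin, nsmul_eq_mul]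
  apply le_of_eq
  ring

/-- the good set: `D²ψ` and `τ` are differentiable -/
def Good (ψ : E n → ℝ) (x : E n) : Prop :=
  (∀ i j, DifferentiableAt ℝ (fun y => hess ψ y i j) x) ∧ ∀ i j, DifferentiableAt ℝ (fun y => tau ψ y i j) x

theorem rad_lipw {f : E n → ℝ} {K : ℝ} (h : ∀ x y, |f x - f y| ≤ K * ‖x - y‖) : LipschitzWith (Real.toNNReal K) f := by
  refine LipschitzWith.of_dist_le_mul fun x y => ?_
  rw [Real.dist_eq, dist_eq_norm]
  exact (h x y).trans (mul_le_mul_of_nonneg_right (Real.le_coe_toNNReal K) (norm_nonneg _))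

theorem rad_good (h : MM ψ V c C M) : ∀ᵐ x : E n, Good ψ x := by
  have h1 : ∀ᵐ x : E n, ∀ i j, DifferentiableAt ℝ (fun y => hess ψ y i j) x := by
    rw [ae_all_iff]
    intro i
    rw [ae_all_iff]
    intro j
    exact (rad_lipw (h.lip i j)).ae_differentiableAt
  have h2 : ∀ᵐ x : E n, ∀ i j, DifferentiableAt ℝ (fun y => tau ψ y i j) x := by
    rw [ae_all_iff]
    intro i
    rw [ae_all_iff]
    intro j
    exact (rad_lipw fun x y => rad_tau_lip h x y i j).ae_differentiableAt
  filter_upwards [h1, h2] with x a b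
  exact ⟨a, b⟩

/-- third derivatives -/
noncomputable def D3 (ψ : E n → ℝ) (x : E n) (k i j : Fin n) : ℝ := pd k (fun y => hess ψ y i j) x

theorem D3_symm (h : MM ψ V c C M) {x : E n} (hx : Good ψ x) (k i j : Fin n) : D3 ψ x k i j = D3 ψ x i k j :=
  rad_third h.C2 hx.1 k i j

theorem D3_symm' (h : MM ψ V c C M) (x : E n) (k i j : Fin n) : D3 ψ x k i j = D3 ψ x k j i := by
  unfold D3
  congr 1
  funext y
  exact rad_hess_symm h.C2 y i j

/-- derivative of `τ` -/
theorem rad_dtau (h : MM ψ V c C M) {x : E n} (hx : Good ψ x) (k i j : Fin n) :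
    pd k (fun y => tau ψ y i j) x = - ∑ a, ∑ b, tau ψ x i a * D3 ψ x k a b * tau ψ x b j := by
  have h1 : ∀ b, ∑ a, (pd k (fun y => tau ψ y i a) x * hess ψ x a b + tau ψ x i a * D3 ψ x k a b) = 0 := by
    intro b
    have e : (fun y => ∑ a, tau ψ y i a * hess ψ y a b) = fun _ => (1 : Matrix (Fin n) (Fin n) ℝ) i b := by
      funext y
      have := congrFun (congrFun (rad_tau_mul h y) i) b
      rw [Matrix.mul_apply] at this
      exact this
    have h2 : pd k (fun y => ∑ a, tau ψ y i a * hess ψ y a b) x = 0 := by rw [e, pd_const]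
    rw [pd_sum fun a _ => (hx.2 i a).fun_mul (hx.1 a b)] at h2
    rw [← h2]
    exact Finset.sum_congr rfl fun a _ => (pd_mul (hx.2 i a) (hx.1 a b)).symm
  have h3 : ∑ b, (∑ a, (pd k (fun y => tau ψ y i a) x * hess ψ x a b + tau ψ x i a * D3 ψ x k a b)) * tau ψ x b j = 0 :=
    Finset.sum_eq_zero fun b _ => by rw [h1 b, zero_mul]
  have h4 : ∑ b, (∑ a, pd k (fun y => tau ψ y i a) x * hess ψ x a b) * tau ψ x b j = pd k (fun y => tau ψ y i j) x := by
    simp only [Finset.sum_mul]
    rw [Finset.sum_comm]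
    have h5 : ∀ a, ∑ b, pd k (fun y => tau ψ y i a) x * hess ψ x a b * tau ψ x b j =
        pd k (fun y => tau ψ y i a) x * if a = j then 1 else 0 := by
      intro a
      have := congrFun (congrFun (rad_mul_tau h x) a) j
      rw [Matrix.mul_apply, Matrix.one_apply] at this
      rw [← this, Finset.mul_sum]
      exact Finset.sum_congr rfl fun b _ => by ring
    rw [Finset.sum_congr rfl fun a _ => h5 a]
    simp
  have h6 : ∑ b, (∑ a, tau ψ x i a * D3 ψ x k a b) * tau ψ x b j =
      ∑ a, ∑ b, tau ψ x i a * D3 ψ x k a b * tau ψ x b j := by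
    simp only [Finset.sum_mul]
    rw [Finset.sum_comm]
  simp only [Finset.sum_add_distrib, add_mul] at h3
  rw [h4, h6] at h3
  linarith

/-- derivative of the Monge-Ampere equation -/
theorem rad_dV (h : MM ψ V c C M) {x : E n} (hx : Good ψ x) (b : Fin n) :
    pd b V x = (∑ i, x i * hess ψ x b i) - ∑ i, ∑ j, tau ψ x j i * D3 ψ x b i j := by
  have hV : V = fun y => ((∑ i, y i * pd i ψ y) - ψ y) - Real.log (hess ψ y).det := funext h.ma
  obtain ⟨hd1, hd2⟩ := rad_det hx.1 b
  have hne : (hess ψ x).det ≠ 0 := rad_det_ne h.c_pos (h.lower x)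
  have hs : ∀ i ∈ (Finset.univ : Finset (Fin n)), DifferentiableAt ℝ (fun y : E n => y i * pd i ψ y) x := fun i _ =>
    (rad_diff_coord i x).mul (rad_pd_diff h.C2 i x)
  have hψ : DifferentiableAt ℝ ψ x := h.C2.differentiable (by norm_num) x
  have hlog : DifferentiableAt ℝ (fun y => Real.log (hess ψ y).det) x := hd1.log hne
  have e1 : pd b (fun y => Real.log (hess ψ y).det) x = ∑ i, ∑ j, tau ψ x j i * D3 ψ x b i j := by
    have e2 : pd b (fun y => Real.log (hess ψ y).det) x = ((hess ψ x).det)⁻¹ * pd b (fun y => (hess ψ y).det) x := by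
      unfold pd
      rw [fderiv.log hd1 hne]
      simp
    rw [e2, hd2, Finset.mul_sum]
    refine Finset.sum_congr rfl fun i _ => ?_
    rw [Finset.mul_sum]
    refine Finset.sum_congr rfl fun j _ => ?_
    have e3 : tau ψ x j i = ((hess ψ x).det)⁻¹ * (hess ψ x).adjugate j i := by
      unfold tau
      rw [Matrix.inv_def, Matrix.smul_apply, smul_eq_mul, Ring.inverse_eq_inv']
    rw [e3, mul_assoc]
    rfl
  conv_lhs => rw [hV]
  rw [pd_sub ((DifferentiableAt.fun_sum hs).fun_sub hψ) hlog, pd_sub (DifferentiableAt.fun_sum hs) hψ, pd_sum hs, e1]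
  have e4 : ∀ i, pd b (fun y : E n => y i * pd i ψ y) x = (if i = b then 1 else 0) * pd i ψ x + x i * hess ψ x b i := by
    intro i
    rw [pd_mul (rad_diff_coord i x) (rad_pd_diff h.C2 i x), pd_coord]
    rfl
  rw [Finset.sum_congr rfl fun i _ => e4 i, Finset.sum_add_distrib]
  simp

/-- the divergence identity: `-div_μ τ = x` -/
theorem rad_div (h : MM ψ V c C M) {x : E n} (hx : Good ψ x) (k : Fin n) :
    ∑ b, (pd b (fun y => tau ψ y b k) x - tau ψ x b k * pd b V x) = - x k := by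
  have h1 : ∀ b, pd b (fun y => tau ψ y b k) x - tau ψ x b k * pd b V x =
      - (∑ a, ∑ d, tau ψ x b a * D3 ψ x b a d * tau ψ x d k) - (∑ i, x i * (tau ψ x k b * hess ψ x b i))
        + ∑ i, ∑ j, tau ψ x j i * D3 ψ x b i j * tau ψ x b k := by
    intro b
    rw [rad_dtau h hx, rad_dV h hx, mul_sub]
    have e1 : tau ψ x b k * ∑ i, x i * hess ψ x b i = ∑ i, x i * (tau ψ x k b * hess ψ x b i) := by
      rw [Finset.mul_sum]
      exact Finset.sum_congr rfl fun i _ => by rw [rad_tau_symm h x k b]; ring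
    have e2 : tau ψ x b k * ∑ i, ∑ j, tau ψ x j i * D3 ψ x b i j =
        ∑ i, ∑ j, tau ψ x j i * D3 ψ x b i j * tau ψ x b k := by
      rw [Finset.mul_sum]
      refine Finset.sum_congr rfl fun i _ => ?_
      rw [Finset.mul_sum]
      exact Finset.sum_congr rfl fun j _ => by ring
    rw [e1, e2]
    ring
  rw [Finset.sum_congr rfl fun b _ => h1 b, Finset.sum_add_distrib, Finset.sum_sub_distrib, Finset.sum_neg_distrib]
  have h2 : ∑ b, ∑ a, ∑ d, tau ψ x b a * D3 ψ x b a d * tau ψ x d k =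
      ∑ b, ∑ i, ∑ j, tau ψ x j i * D3 ψ x b i j * tau ψ x b k := by
    -- rename: `d` is the outer index on the right
    have h3 : ∀ b a d, tau ψ x b a * D3 ψ x b a d * tau ψ x d k = tau ψ x b a * D3 ψ x d a b * tau ψ x d k := by
      intro b a d
      have : D3 ψ x b a d = D3 ψ x d a b := by
        rw [D3_symm' h x b a d, D3_symm h hx b d a, D3_symm' h x d b a]
      rw [this]
    calc ∑ b, ∑ a, ∑ d, tau ψ x b a * D3 ψ x b a d * tau ψ x d k
        = ∑ b, ∑ a, ∑ d, tau ψ x b a * D3 ψ x d a b * tau ψ x d k :=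
          Finset.sum_congr rfl fun b _ => Finset.sum_congr rfl fun a _ => Finset.sum_congr rfl fun d _ => h3 b a d
      _ = ∑ a, ∑ b, ∑ d, tau ψ x b a * D3 ψ x d a b * tau ψ x d k := Finset.sum_comm
      _ = ∑ a, ∑ d, ∑ b, tau ψ x b a * D3 ψ x d a b * tau ψ x d k :=
          Finset.sum_congr rfl fun a _ => Finset.sum_comm
      _ = ∑ d, ∑ a, ∑ b, tau ψ x b a * D3 ψ x d a b * tau ψ x d k := Finset.sum_comm
  have h5 : ∑ b, ∑ i, x i * (tau ψ x k b * hess ψ x b i) = x k := by
    rw [Finset.sum_comm]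
    have h6 : ∀ i, ∑ b, x i * (tau ψ x k b * hess ψ x b i) = x i * if k = i then 1 else 0 := by
      intro i
      have := congrFun (congrFun (rad_tau_mul h x) k) i
      rw [Matrix.mul_apply, Matrix.one_apply] at this
      rw [← this, Finset.mul_sum]
    rw [Finset.sum_congr rfl fun i _ => h6 i]
    simp
  rw [h2, h5]
  ring

/-- `∑_e τ_{ae} ∂_e τ_{bd}` is symmetric in `a, b` (and in `b, d`) -/
theorem rad_T (h : MM ψ V c C M) {x : E n} (hx : Good ψ x) (a b d : Fin n) :
    ∑ e, tau ψ x a e * pd e (fun y => tau ψ y b d) x = ∑ e, tau ψ x b e * pd e (fun y => tau ψ y a d) x := by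
  have h1 : ∀ a b, ∑ e, tau ψ x a e * pd e (fun y => tau ψ y b d) x =
      - ∑ e, ∑ k, ∑ l, tau ψ x a e * tau ψ x b k * D3 ψ x e k l * tau ψ x l d := by
    intro a b
    rw [← Finset.sum_neg_distrib]
    refine Finset.sum_congr rfl fun e _ => ?_
    rw [rad_dtau h hx, mul_neg, Finset.mul_sum]
    congr 1
    refine Finset.sum_congr rfl fun k _ => ?_
    rw [Finset.mul_sum]
    exact Finset.sum_congr rfl fun l _ => by ring
  rw [h1, h1, neg_inj, Finset.sum_comm]
  refine Finset.sum_congr rfl fun e _ => Finset.sum_congr rfl fun k _ => Finset.sum_congr rfl fun l _ => ?_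
  rw [D3_symm h hx k e l]
  ring

theorem rad_T' (h : MM ψ V c C M) {x : E n} (a b d : Fin n) :
    ∑ e, tau ψ x a e * pd e (fun y => tau ψ y b d) x = ∑ e, tau ψ x a e * pd e (fun y => tau ψ y d b) x := by
  refine Finset.sum_congr rfl fun e _ => ?_
  congr 1
  unfold pd
  congr 2
  funext y
  exact rad_tau_symm h y b d

end MMs

end Vale.Agent.P227.M.Key568
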